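import Crest.Agent.X262.Emb10.Frm
import Crest.Agent.X262.Emb11.Defs

/-!
# Row 262, road B, EMB (helper10): the divisor of the new equations over a lift
-/

set_option autoImplicit false
set_option linter.unusedSectionVars false

noncomputable section

namespace Crest.Agent.X262.Emb10

open Crest.Agent.X277 Crest.Agent.X277.BD Crest.Agent.X277.BD.Cyc Polynomial
open Crest.Agent.X262.Hb Crest.Agent.X262.Vb Crest.Agent.X262.Emb
open Crest.Agent.X262.Bub96 (hv hv_mul hv_add hv_C_mul hv_zero hv_sum)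
open Crest.Agent.X262.Bub96.Tr (dot)
open Crest.Agent.X262.Node22 (scl chr pv_scl chr_ne)
open Crest.Agent.X262.Val40 (dn rf rf_r v_dn_lt_one v_dn_eq_one mem_dn)
open Crest.Agent.X262.Tree87 (TL)

variable {J : Type} [Fintype J] [DecidableEq J] {io : Option J → Type} [∀ j, Fintype (io j)]
  [∀ j, DecidableEq (io j)] {A A' : Type} [Fintype A] [Fintype A'] {T : Tgt (bs io) A}
  {T' : Tgt io A'} {d : J → ℕ} {K L : Type} [Field K] [Algebra ℂ K] [Field L] [Algebra ℂ L]

theorem pv_upq (y : Pnt io L) (q : MvPolynomial (Vr (bs io)) ℂ) : pv y (upq q) = pv (prP y) q :=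
  MvPolynomial.aeval_rename _ _ _

/-- two points near the graph with the same old coordinates are near -/
theorem wedge_le (G : Gr T T' d) {V : RZ ℂ L} {γ : V.1.ValueGroup} {y y' : Pnt io L}
    (h : ∀ j i, y j i ∈ V.1) (h' : ∀ j i, y' j i ∈ V.1) (e : prP y = prP y') {l : G.L}
    {a₁ : io none} (hu : V.v (pv (prP y') (G.q l a₁)) = 1) (hF : ∀ b, V.v (pv y (T'.F b)) ≤ γ)
    (hF' : ∀ b, V.v (pv y' (T'.F b)) ≤ γ) (a b : io none) :
    V.v (y none a * y' none b - y none b * y' none a) ≤ γ := by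
  have h1 : ∀ a b, V.v (y none a * pv (prP y') (G.q l b) - y none b * pv (prP y') (G.q l a)) ≤ γ :=
    fun a b => by
      have := v_pv_ideal h hF (G.idq l a b)
      rwa [pv, map_sub, map_mul, map_mul, MvPolynomial.aeval_X, MvPolynomial.aeval_X, ← pv, ← pv,
        pv_upq, pv_upq, e] at this
  have h2 : ∀ a b, V.v (y' none a * pv (prP y') (G.q l b) - y' none b * pv (prP y') (G.q l a)) ≤ γ :=
    fun a b => by
      have := v_pv_ideal h' hF' (G.idq l a b)
      rwa [pv, map_sub, map_mul, map_mul, MvPolynomial.aeval_X, MvPolynomial.aeval_X, ← pv, ← pv,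
        pv_upq, pv_upq] at this
  have h3 := v_add_le (v_sub_le (v_mul_le (h' none b) (h1 a a₁)) (v_mul_le (h' none a) (h1 b a₁)))
    (v_mul_le (h none a₁) (h2 b a))
  rw [← one_mul (V.v _), ← hu, ← map_mul]
  convert h3 using 2
  ring

variable {n N : ℕ} {I I' : Type} [Fintype I] [Fintype I'] {α : K →ₐ[ℂ] L}
  {ξ : Dat (bs io) d I K} {ζ : Dat io (exd d n) I K} {η : Dat io (exd d n) I' L} {g : I → I'}
  {p : RZ ℂ L}

theorem pt_map' (ζ : Dat io (exd d n) I K) (α : K →ₐ[ℂ] L) (q : I) :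
    (ζ.map α).pt ((ζ.map α).x q) = mapP α (ζ.pt (ζ.x q)) :=
  Bub96.pt_map ζ α (ζ.x q)

/-- the normalised coordinates of the lift -/
def hat (ζ : Dat io (exd d n) I K) (W : RZ ℂ K) (q : I) : Pnt io K :=
  (ζ.cfg.gau (ζ.cfg.nrm W)).y q

theorem nz_cfg {J : Type} [Fintype J] [DecidableEq J] {io : J → Type} [∀ j, Fintype (io j)]
    [∀ j, DecidableEq (io j)] {d : J → ℕ} (ζ : Dat io d I K) : ζ.cfg.NZ :=
  fun _ => Bub96.nz_pt ζ _

theorem prim_hat (ζ : Dat io (exd d n) I K) (W : RZ ℂ K) (q : I) : Prim W (hat ζ W q) :=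
  Cfg.pr_nrm (nz_cfg ζ) W q

theorem prim_map {y : Pnt io K} (h : Prim (dn α p) y) : Prim p (mapP α y) :=
  fun j => ⟨fun i => mem_dn.1 ((h j).1 i), (h j).2.imp fun _ hi => v_dn_eq_one.1 hi⟩

theorem mapP_hat (ζ : Dat io (exd d n) I K) (W : RZ ℂ K) (q : I) :
    mapP α (hat ζ W q) = scl (fun j => α (ζ.cfg.nrm W q j)) ((ζ.map α).pt ((ζ.map α).x q)) := by
  rw [pt_map']
  funext j i
  exact map_mul α _ _

theorem nrm_ne' (ζ : Dat io (exd d n) I K) (W : RZ ℂ K) (q : I) (j : Option J) :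
    α (ζ.cfg.nrm W q j) ≠ 0 := (map_ne_zero α).2 (Cfg.nrm_ne W _ q j)

/-- a bound at the normalised points is a bound everywhere -/
theorem bound (h : LiftAt T' N ξ (dn α p) ζ) {κ : Option J → ℕ} (hκ : ∀ j, κ j ≤ N) {σ : L[X]}
    (hσ : σ.natDegree ≤ dot κ (exd d n)) {μ : L} (hμ : μ ≠ 0)
    (hb : ∀ q, p.v (chr (fun j => α (ζ.cfg.nrm (dn α p) q j)) κ *
      hv (dot κ (exd d n)) σ ((ζ.map α).x q)) ≤ p.v μ) (t : Option L) :
    p.v (hv (dot κ (exd d n)) σ t) ≤ p.v μ * (lw κ ((ζ.map α).pt t)).val p := by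
  have h1 := h.nrm L α p rfl κ hκ (C μ⁻¹ * σ) ((natDegree_C_mul_le _ _).trans hσ) (fun q => by
    have h2 := (prim_map (prim_hat ζ (dn α p) q)).val_lw κ
    rw [mapP_hat, lw_scl (Bub96.nz_pt _ _) (nrm_ne' ζ _ q), val_add,
      val_pr (chr_ne (nrm_ne' ζ _ q) κ)] at h2
    have h3 := hb q
    rw [map_mul, eq_inv_of_mul_eq_one_right h2, mul_comm, ← div_eq_mul_inv,
      div_le_iff₀ (val_pos _ _)] at h3
    rw [hv_C_mul, map_mul, map_inv₀, inv_mul_le_iff₀ (RZ.pos hμ)]
    exact h3) t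
  rwa [hv_C_mul, map_mul, map_inv₀, inv_mul_le_iff₀ (RZ.pos hμ)] at h1

/-- the lift is near the graph -/
theorem exists_lam {W : RZ ℂ K} (h : (ζ.cfg.red (plV W)).On T') :
    ∃ lam : K, W.v lam < 1 ∧ ∀ q b, W.v (pv (hat ζ W q) (T'.F b)) ≤ W.v lam := by
  have h1 : ∀ q b, W.v (pv (hat ζ W q) (T'.F b)) < 1 := fun q b => by
    have h2 := fun j => (prim_hat ζ W q j).1
    exact (Pl.r_eq_zero (p := plV W) (pv_mem h2 _)).1 ((r_pv (lnr_plV W) h2 _).trans (h q b))
  rcases (Finset.univ : Finset (I × A')).eq_empty_or_nonempty with h0 | h0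
  · exact ⟨0, by simp, fun q b => absurd (Finset.mem_univ (q, b)) (h0 ▸ Finset.notMem_empty _)⟩
  · obtain ⟨x, -, hx⟩ := Finset.exists_max_image _
      (fun x : I × A' => W.v (pv (hat ζ W x.1) (T'.F x.2))) h0
    exact ⟨_, h1 x.1 x.2, fun q b => hx (q, b) (Finset.mem_univ _)⟩

theorem near (h : LiftAt T' N ξ (dn α p) ζ) (hk : ∀ b j, T'.k b j ≤ N) {μ : L} (hμ : μ ≠ 0)
    (hb : ∀ q b, p.v (α (pv (hat ζ (dn α p) q) (T'.F b))) ≤ p.v μ) (t : Option L) (b : A') :
    p.v (pv ((ζ.map α).pt t) (T'.F b)) ≤ p.v μ * (lw (T'.k b) ((ζ.map α).pt t)).val p := by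
  obtain ⟨σ, h1, h2⟩ := exists_form (ζ.map α) (T'.hom b)
  rw [← h2]
  refine bound h (hk b) h1 hμ (fun q => ?_) t
  rw [h2, ← pv_scl (T'.hom b), ← mapP_hat, pv_map]
  exact hb q b

theorem old_eq (h : prD ζ = ξ) (he : prD (η.res g) = ξ.map α) (t : Option L) (j : J) :
    η.pt t (some j) = (ζ.map α).pt t (some j) := by
  subst h
  have := congrArg (fun x => x.f j) he
  funext i
  exact congrArg (fun f => hv (d j) (f i) t) this

theorem x_eq (h : prD ζ = ξ) (he : prD (η.res g) = ξ.map α) (q : I) :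
    η.x (g q) = (ζ.map α).x q := by
  subst h
  exact congrArg (fun x => x.x q) he

/-- upper bound -/
theorem upper (h : LiftAt T' N ξ (dn α p) ζ) (hk : ∀ b j, T'.k b j ≤ N)
    (he : prD (η.res g) = ξ.map α) {μ c₀ : L} (hμ : μ ≠ 0) (hμ1 : p.v μ < 1) (hc : c₀ ≠ 0)
    (hb : ∀ q b, p.v (α (pv (hat ζ (dn α p) q) (T'.F b))) ≤ p.v μ)
    (hw : ∀ t a, p.v (η.pt t none a - c₀ * (ζ.map α).pt t none a) ≤
      p.v (μ * c₀) * (ln ((ζ.map α).pt t) none).val p) :
    nm (η.cfg.ea T') p (η.cfg.sv T') ≤ p.v μ := by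
  refine nm_le.2 fun x => ?_
  obtain ⟨b, q⟩ := x
  change p.v (pv (η.pt (η.x q)) (T'.F b)) ≤ p.v μ * (lw (T'.k b) (η.pt (η.x q))).val p
  generalize η.x q = t
  have n1 := Bub96.nz_pt (ζ.map α) t
  have n2 := Bub96.nz_pt η t
  let c : Option J → L := fun j => ((ln ((ζ.map α).pt t) j).gen p)⁻¹
  have hc0 : ∀ j, c j ≠ 0 := fun j => inv_ne_zero (gen_ne _ _)
  have hcv : ∀ j, p.v (c j) = ((ln ((ζ.map α).pt t) j).val p)⁻¹ := fun j => by
    rw [map_inv₀, v_gen]
  have hp : Prim p (scl c ((ζ.map α).pt t)) := prim_scl n1 hcv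
  let c' : Option J → L := fun j => j.elim (c none / c₀) fun j => c (some j)
  have hc0' : ∀ j, c' j ≠ 0 := fun j => by
    rcases j with _ | j
    · exact div_ne_zero (hc0 _) hc
    · exact hc0 _
  have hd : ∀ j i, p.v (scl c' (η.pt t) j i - scl c ((ζ.map α).pt t) j i) ≤ p.v μ := by
    rintro (_ | j) i
    · have : scl c' (η.pt t) none i - scl c ((ζ.map α).pt t) none i =
          c none / c₀ * (η.pt t none i - c₀ * (ζ.map α).pt t none i) := by
        change c none / c₀ * _ - c none * _ = _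
        field_simp
      rw [this, map_mul, map_div₀, hcv, div_mul_eq_mul_div, div_le_iff₀ (RZ.pos hc),
        inv_mul_le_iff₀ (val_pos _ _), ← map_mul]
      exact (hw t i).trans_eq (mul_comm _ _)
    · change p.v (c (some j) * η.pt t (some j) i - c (some j) * _) ≤ _
      rw [old_eq h.prj he, sub_self, map_zero]
      exact zero_le
  have hi : ∀ j i, scl c' (η.pt t) j i ∈ p.1 := fun j i => by
    rw [← sub_add_cancel (scl c' (η.pt t) j i) (scl c ((ζ.map α).pt t) j i)]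
    exact add_mem (RZ.le_one_iff.1 ((hd j i).trans hμ1.le)) ((hp j).1 i)
  have hp' : Prim p (scl c' (η.pt t)) := fun j => ⟨hi j, (hp j).2.imp fun i h1 => by
    rw [← sub_add_cancel (scl c' (η.pt t) j i) (scl c ((ζ.map α).pt t) j i),
      Valuation.map_add_eq_of_lt_right _ (h1 ▸ (hd j i).trans_lt hμ1), h1]⟩
  rw [← v_pv_prim n2 hc0' hp' (T'.hom b),
    ← sub_add_cancel (pv (scl c' (η.pt t)) (T'.F b)) (pv (scl c ((ζ.map α).pt t)) (T'.F b))]
  exact v_add_le (v_pv_sub hi (fun j => (hp j).1) hd _)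
    ((v_pv_prim n1 hc0 hp (T'.hom b)).2 (near h hk hμ hb t b))

/-- lower bound -/
theorem lower (G : Gr T T' d) (h : prD ζ = ξ) (he : prD (η.res g) = ξ.map α) {q : I} {l : G.L}
    {a₁ : io none} (hu : (dn α p).v (pv (prP (hat ζ (dn α p) q)) (G.q l a₁)) = 1)
    {γ m₀ : p.1.ValueGroup} (hb : ∀ b, p.v (α (pv (hat ζ (dn α p) q) (T'.F b))) ≤ γ)
    (hM : nm (η.cfg.ea T') p (η.cfg.sv T') ≤ γ)
    (hm : ∀ a, p.v (α (ζ.cfg.nrm (dn α p) q none) * η.pt (η.x (g q)) none a) ≤ m₀) (a b : io none) :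
    p.v (α (ζ.cfg.nrm (dn α p) q none) * η.pt (η.x (g q)) none a * α (hat ζ (dn α p) q none b) -
      α (ζ.cfg.nrm (dn α p) q none) * η.pt (η.x (g q)) none b * α (hat ζ (dn α p) q none a)) ≤
      γ * m₀ := by
  have n2 := Bub96.nz_pt η (η.x (g q))
  have hp := prim_map (prim_hat ζ (dn α p) q)
  let ρ : L := ((ln (η.pt (η.x (g q))) none).gen p)⁻¹
  have hρ : ρ ≠ 0 := inv_ne_zero (gen_ne _ _)
  let c' : Option J → L := fun j => j.elim ρ fun j => α (ζ.cfg.nrm (dn α p) q (some j))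
  have hc0' : ∀ j, c' j ≠ 0 := fun j => by
    rcases j with _ | j
    · exact hρ
    · exact nrm_ne' ζ _ q _
  have e1 : ∀ j, scl c' (η.pt (η.x (g q))) (some j) = mapP α (hat ζ (dn α p) q) (some j) :=
    fun j => by
      rw [mapP_hat]
      funext i
      change c' (some j) * η.pt (η.x (g q)) (some j) i = _
      rw [old_eq h he, x_eq h he]
      rfl
  have hp' : Prim p (scl c' (η.pt (η.x (g q)))) := by
    rintro (_ | j)
    · exact prim_scl n2 (c := fun j => ((ln (η.pt (η.x (g q))) j).gen p)⁻¹)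
        (fun j => by rw [map_inv₀, v_gen]) none
    · rw [e1]
      exact hp (some j)
  have h1 := wedge_le G (fun j => (hp' j).1) (fun j => (hp j).1) (_root_.funext e1) (l := l)
    (a₁ := a₁) (by
      rw [show prP (mapP α (hat ζ (dn α p) q)) = mapP α (prP (hat ζ (dn α p) q)) from rfl, pv_map]
      exact v_dn_eq_one.1 hu)
    (fun b => (v_pv_prim n2 hc0' hp' (T'.hom b)).2 (nm_le.1 hM (b, g q)))
    (fun b => by rw [pv_map]; exact hb b) a b
  obtain ⟨i, hi⟩ := (hp' none).2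
  have h2 : p.v (α (ζ.cfg.nrm (dn α p) q none) / ρ) ≤ m₀ := by
    have := hm i
    rwa [show α (ζ.cfg.nrm (dn α p) q none) * η.pt (η.x (g q)) none i =
      α (ζ.cfg.nrm (dn α p) q none) / ρ * scl c' (η.pt (η.x (g q))) none i by
        change _ = _ * (ρ * _)
        field_simp, map_mul, hi, mul_one] at this
  refine le_of_eq_of_le ?_ (mul_le_mul' h1 h2)
  rw [← map_mul]
  congr 1
  change _ = (ρ * _ * α _ - ρ * _ * α _) * _
  field_simp

/-- the two estimates give the value -/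
theorem final {Γ : Type*} [LinearOrderedCommGroupWithZero Γ] {M m₀ m₁ la : Γ} (h0 : 0 < m₁)
    (h1 : m₁ ≤ m₀) (hM : M ≤ 1) (hla : la < 1) (lo : m₁ ≤ max M la * m₀)
    (up : m₁ < m₀ → M ≤ max la (m₁ / m₀)) :
    (M⁻¹ = 1 ↔ m₀ / m₁ = 1) ∧ (la * (m₀ / m₁) < 1 → M⁻¹ = m₀ / m₁) := by
  have h2 : 0 < m₀ := h0.trans_le h1
  have lo' : la * m₀ < m₁ → m₁ ≤ M * m₀ := fun h => by
    rcases le_total M la with h3 | h3
    · rw [max_eq_right h3] at lo
      exact absurd h lo.not_gt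
    · rwa [max_eq_left h3] at lo
  refine ⟨⟨fun h => ?_, fun h => ?_⟩, fun h => ?_⟩
  · by_contra h3
    have h4 : m₁ < m₀ := h1.lt_of_ne fun h4 => h3 (by rw [h4, div_self h2.ne'])
    rw [inv_eq_one] at h
    exact absurd ((up h4).trans_lt (max_lt hla ((div_lt_one₀ h2).2 h4))) (h ▸ lt_irrefl _)
  · rw [div_eq_one_iff_eq h0.ne'] at h
    subst h
    rw [inv_eq_one]
    exact hM.antisymm ((le_mul_iff_one_le_left h0).1 (lo' (mul_lt_of_lt_one_left h0 hla)))
  · rw [← mul_div_assoc, div_lt_one₀ h0] at h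
    rw [← inv_div m₁ m₀, inv_inj]
    refine le_antisymm ?_ ((div_le_iff₀ h2).2 (lo' h))
    rcases h1.eq_or_lt with h3 | h3
    · rwa [h3, div_self h2.ne']
    · exact (up h3).trans (max_le ((le_div_iff₀ h2).2 h.le) le_rfl)

/-- the estimates at one valuation -/
theorem at_p (hP : PropStmt) (G : Gr T T' d) (h : LiftAt T' N ξ (dn α p) ζ)
    (hk : ∀ b j, T'.k b j ≤ N) (h2 : 2 ≤ N) (he : prD (η.res g) = ξ.map α)
    (hch : ∀ q, ∃ l a, pv (prP ((ζ.cfg.red (plV (dn α p))).y q)) (G.q l a) ≠ 0)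
    {S : Finset I} {τ : I → K[X]} (hF : Frame ζ (dn α p) none S τ) {cc : io none × S → L}
    {c₀ : L} (hc₀ : c₀ ≠ 0) (hf : ∀ a, η.f none a = C c₀ * (ζ.f none a).map (α : K →+* L) +
      ∑ s : S, C (cc (a, s)) * (τ s).map (α : K →+* L)) {x₀ x₁ : io none × S}
    (h0 : cc x₀ = 0) (hγ : (dn α p).v (hat ζ (dn α p) x₀.2 none x₀.1) = 1) (h1 : cc x₁ ≠ 0)
    (hm : ∀ x, p.v (cc x) ≤ p.v (cc x₁)) {lam : K} (hl : (dn α p).v lam < 1)
    (hb : ∀ q b, (dn α p).v (pv (hat ζ (dn α p) q) (T'.F b)) ≤ (dn α p).v lam) :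
    p.v (cc x₁) ≤ max (nm (η.cfg.ea T') p (η.cfg.sv T')) (p.v (α lam)) *
        max (p.v c₀) (p.v (cc x₁)) ∧
      (p.v (cc x₁) < p.v c₀ → nm (η.cfg.ea T') p (η.cfg.sv T') ≤
        max (p.v (α lam)) (p.v (cc x₁) / p.v c₀)) := by
  classical
  have hb' : ∀ q b, p.v (α (pv (hat ζ (dn α p) q) (T'.F b))) ≤ p.v (α lam) :=
    fun q b => Val40.v_dn_le.1 (hb q b)
  let u : I → I → K := fun s q => ζ.cfg.nrm (dn α p) q none * hv n (τ s) (ζ.x q)
  have hu : ∀ (s : S) q, α (u s q) ∈ p.1 := fun s q => mem_dn.1 (hF.int s s.2 q)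
  let w : io none → L[X] := fun a => ∑ s : S, C (cc (a, s)) * (τ s).map (α : K →+* L)
  have hwd : ∀ a, (w a).natDegree ≤ n := fun a => natDegree_sum_le_of_forall_le _ _ fun s _ =>
    (natDegree_C_mul_le _ _).trans (natDegree_map_le.trans (hF.deg s))
  let wh : io none → I → L := fun a q => ∑ s : S, cc (a, s) * α (u s q)
  have hwh : ∀ a q, α (ζ.cfg.nrm (dn α p) q none) * hv n (w a) ((ζ.map α).x q) = wh a q :=
    fun a q => by
      rw [hv_sum, Finset.mul_sum]
      refine Finset.sum_congr rfl fun s _ => ?_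
      rw [hv_C_mul, show (ζ.map α).x q = (ζ.x q).map (α : K →+* L) from rfl, Bub96.hv_map,
        map_mul]
      exact mul_left_comm _ _ _
  have W0 : ∀ a q, p.v (wh a q) ≤ p.v (cc x₁) := fun a q =>
    Valuation.map_sum_le _ fun s _ => v_mul_le' (hm _) (hu s q)
  have hpt : ∀ t a, η.pt t none a = c₀ * (ζ.map α).pt t none a + hv n (w a) t := fun t a => by
    change hv n (η.f none a) t = _
    rw [hf, hv_add, hv_C_mul]
    rfl
  have hs : ∀ x : io none × S, wh x.1 x.2 = cc x := fun x => by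
    refine (Finset.sum_eq_single x.2 (fun s _ hs => ?_) (by simp)).trans ?_
    · rw [show u s x.2 = 0 from (hF.piv s s.2 _ x.2.2).trans (if_neg fun h => hs (Subtype.ext h)),
        map_zero, mul_zero]
    · rw [show u x.2 x.2 = 1 from (hF.piv _ x.2.2 _ x.2.2).trans (if_pos rfl), map_one, mul_one]
  have hg : ∀ q a, α (hat ζ (dn α p) q none a) ∈ p.1 := fun q a =>
    mem_dn.1 ((prim_hat ζ _ q none).1 a)
  refine ⟨?_, fun hlt => ?_⟩
  · have hd : ∀ a q, wh a q / cc x₁ ∈ p.1 := fun a q => RZ.le_one_iff.1 (by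
      rw [map_div₀, div_le_one₀ (RZ.pos h1)]; exact W0 a q)
    obtain ⟨q, a, b, W2⟩ : ∃ q a b, p.v (cc x₁) ≤ p.v (wh a q * α (hat ζ (dn α p) q none b) -
        wh b q * α (hat ζ (dn α p) q none a)) := by
      by_contra hc
      push Not at hc
      have hy : ∀ q a, rf α p ((ζ.cfg.red (plV (dn α p))).y q none a) =
          (plV p).r (α (hat ζ (dn α p) q none a)) := fun q a => rf_r α p _
      refine (hP (ζ.cfg.red (plV (dn α p))) (rf α p) none h.tl h2
        (fun a q => (plV p).r (wh a q / cc x₁)) (fun a => ?_) fun q a b => ?_).elim fun μ hμ => ?_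
      rotate_right
      · have e0 := hμ x₀.1 x₀.2
        have e1 := hμ x₁.1 x₁.2
        simp only [hs, hy] at e0 e1
        rw [h0, zero_div, Pl.r_zero, eq_comm, mul_eq_zero,
          or_iff_left ((Pl.r_ne_zero_iff (p := plV p)).2 (v_dn_eq_one.1 hγ))] at e0
        rw [div_self h1, Pl.r_one, e0, zero_mul] at e1
        exact one_ne_zero e1
      · have hc' : ∀ s, cc (a, s) / cc x₁ ∈ p.1 := fun s => RZ.le_one_iff.1 (by
          rw [map_div₀, div_le_one₀ (RZ.pos h1)]; exact hm _)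
        have : (fun q => (plV p).r (wh a q / cc x₁)) = ∑ s : S, (plV p).r (cc (a, s) / cc x₁) •
            fun q => rf α p ((plV (dn α p)).r (u s q)) := by
          funext q
          rw [Finset.sum_apply, Finset.sum_div,
            Tree87.r_sum (p := plV p) _ fun s _ => by
              rw [mul_div_right_comm]; exact mul_mem (hc' s) (hu s q)]
          refine Finset.sum_congr rfl fun s _ => ?_
          rw [mul_div_right_comm, Pl.r_mul (p := plV p) (hc' s) (hu s q), Pi.smul_apply, rf_r,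
            smul_eq_mul]
        rw [this]
        exact sum_mem fun s _ => Submodule.smul_mem _ _ (mem_mapS _ (mem_redS (plV (dn α p))
          ((mem_gau_V ζ _ none).2 ⟨τ s, hF.deg s, fun _ => rfl⟩) (hF.int s s.2)))
      · rw [hy, hy, ← Pl.r_mul (p := plV p) (hd a q) (hg q b),
          ← Pl.r_mul (p := plV p) (hd b q) (hg q a), ← sub_eq_zero,
          ← Pl.r_sub (p := plV p) (mul_mem (hd a q) (hg q b)) (mul_mem (hd b q) (hg q a)),
          Pl.r_eq_zero (p := plV p) (sub_mem (mul_mem (hd a q) (hg q b)) (mul_mem (hd b q) (hg q a))),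
          div_mul_eq_mul_div, div_mul_eq_mul_div, ← sub_div]
        change p.v _ < 1
        rw [map_div₀, div_lt_one₀ (RZ.pos h1)]
        exact hc q a b
    obtain ⟨l, a₁, hl₁⟩ := hch q
    have hfh : ∀ a, α (ζ.cfg.nrm (dn α p) q none) * η.pt (η.x (g q)) none a =
        c₀ * α (hat ζ (dn α p) q none a) + wh a q := fun a => by
      rw [hpt, x_eq h.prj he, mul_add, hwh, mul_left_comm]
      exact congrArg (c₀ * · + _) (congrFun (congrFun (mapP_hat ζ _ q) none) a).symm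
    have := lower G h.prj he (q := q) (l := l) (a₁ := a₁) ((Pl.r_ne_zero_iff (p := plV (dn α p))).1 (by
        rwa [r_pv (p := plV (dn α p)) (y := prP (hat ζ (dn α p) q)) (lnr_plV _)
          fun j => (prim_hat ζ _ q (some j)).1]))
      (fun b => (hb' q b).trans (le_max_right _ _)) (le_max_left _ _)
      (m₀ := max (p.v c₀) (p.v (cc x₁))) (fun a => by
        rw [hfh]
        exact v_add_le (v_mul_le' (le_max_left _ _) (hg q a)) ((W0 a q).trans (le_max_right _ _)))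
      a b
    rw [hfh, hfh] at this
    refine W2.trans (le_of_eq_of_le ?_ this)
    congr 1
    ring
  · have W1 : ∀ t a, p.v (hv n (w a) t) ≤
        p.v (cc x₁) * (ln ((ζ.map α).pt t) none).val p := fun t a => by
      have := bound h (κ := Pi.single none 1) (fun j => (by
        rcases j with _ | j <;> simp; omega)) (σ := w a) (by rw [dot_single]; exact hwd a) h1
        (fun q => by rw [dot_single, chr_single]; exact (hwh a q).symm ▸ W0 a q) t
      rwa [dot_single, lw_single] at this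
    have key : ∀ μ : L, μ ≠ 0 → p.v μ < 1 → p.v (α lam) ≤ p.v μ → p.v (cc x₁) ≤ p.v (μ * c₀) →
        nm (η.cfg.ea T') p (η.cfg.sv T') ≤ p.v μ := fun μ e1 e2 e3 e4 =>
      upper h hk he e1 e2 hc₀ (fun q b => (hb' q b).trans e3) fun t a => by
        rw [hpt, add_sub_cancel_left]
        exact (W1 t a).trans (mul_le_mul_left e4 _)
    rw [← map_div₀]
    rcases le_total (p.v (α lam)) (p.v (cc x₁ / c₀)) with e | e
    · rw [max_eq_right e]
      exact key _ (div_ne_zero h1 hc₀) (by rwa [map_div₀, div_lt_one₀ (RZ.pos hc₀)]) e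
        (by rw [div_mul_cancel₀ _ hc₀])
    · rw [max_eq_left e]
      refine key _ (RZ.ne_zero_iff.1 ((RZ.pos (div_ne_zero h1 hc₀)).trans_le e).ne')
        (v_dn_lt_one.1 hl) le_rfl ?_
      rwa [map_div₀, div_le_iff₀ (RZ.pos hc₀), ← map_mul] at e

theorem hv_eq_sum' {n : ℕ} {σ : K[X]} (hσ : σ.natDegree ≤ n) (t : Option K) :
    hv n σ t = ∑ l : Fin (n + 1), hv n (X ^ (l : ℕ)) t * σ.coeff l := by
  simpa using hv_eq_sum hσ (AlgHom.id ℂ K) t

/-- **REL** -/
theorem relStmt_of (hPr : PropStmt) (hB : BndStmt) : RelStmt := by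
  classical
  intro J _ _ io _ _ A A' _ _ T T' d G hnt
  obtain ⟨N₁, hN₁⟩ := hB G
  refine ⟨2 + ∑ b, ∑ j, T'.k b j, ?_⟩
  intro I I' K L _ _ _ _ _ _ n N α ξ W ζ η g hN h he hL hO
  have hk : ∀ b j, T'.k b j ≤ N := fun b j =>
    ((Finset.single_le_sum (f := T'.k b) (fun _ _ => Nat.zero_le _) (Finset.mem_univ j)).trans
      (Finset.single_le_sum (f := fun b => ∑ j, T'.k b j) (fun _ _ => Nat.zero_le _)
        (Finset.mem_univ b))).trans (le_of_add_le_right hN)
  have h2 : 2 ≤ N := le_of_add_le_left hN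
  have hch := (hN₁ n N _ hk h.tl h.on).2
  obtain ⟨S, τ, hF⟩ := exists_frame ζ W none (by
    have := h.tl.finrank_V (κ := Pi.single none 1) fun j => by
      rcases j with _ | j <;> simp; omega
    rwa [dot_single, show (ζ.cfg.red (plV W)).V (Pi.single none 1) =
      redS (plV W) ((ζ.cfg.gau (ζ.cfg.nrm W)).V (Pi.single none 1)) from rfl, finrank_redS,
      Cfg.gau_V, finrank_sclS fun q => chr_ne (Cfg.nrm_ne W _ q) _] at this)
  have hS : S.card = n + 1 := hF.card
  obtain ⟨s₀, hs₀⟩ : S.Nonempty := Finset.card_pos.1 (by omega)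
  obtain ⟨a₀, ha₀⟩ := (prim_hat ζ W s₀ none).2
  let x₀ : io none × S := (a₀, ⟨s₀, hs₀⟩)
  have hc2 : 2 ≤ Fintype.card (io none) := Fintype.one_lt_card
  have hmp : 1 ≤ mp io n := by
    have : 2 * 1 ≤ Fintype.card (io none) * (n + 1) := Nat.mul_le_mul hc2 (by omega)
    unfold Emb.mp
    omega
  have hcard : Fintype.card (io none × S) = mp io n + 1 := by
    rw [Fintype.card_prod, Fintype.card_coe, hS]
    unfold Emb.mp at hmp ⊢
    omega
  obtain ⟨e, he0⟩ : ∃ e : Fin (mp io n + 1) ≃ io none × S, e 0 = x₀ :=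
    ⟨(Equiv.swap 0 (Fintype.equivFinOfCardEq hcard x₀)).trans
      (Fintype.equivFinOfCardEq hcard).symm, by simp⟩
  let γ : io none × S → K := fun x => hat ζ W x.2 none x.1
  have hγ0 : γ x₀ ≠ 0 := RZ.ne_zero_iff.1 (ha₀ ▸ one_ne_zero)
  let P' : io none × S → io none × Fin (n + 1) → K := fun x y =>
    if y.1 = x.1 then ζ.cfg.nrm W x.2 none * hv n (X ^ (y.2 : ℕ)) (ζ.x x.2) else 0
  let c' : io none × S → L := fun x =>
    α (ζ.cfg.nrm W x.2 none) * hv n (η.f none x.1) ((ζ.x x.2).map α)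
  have hc' : ∀ x, c' x = ∑ y, α (P' x y) * coef η y := fun x => by
    rw [Fintype.sum_prod_type, Finset.sum_eq_single x.1 (fun a _ ha => by simp [P', ha]) (by simp)]
    simp only [c', P', if_true, hv_eq_sum (n := n) (η.cp.1 none x.1) α, Finset.mul_sum, map_mul, mul_assoc]
    rfl
  have hT : ∀ x x' : io none × S, ∑ y, P' x y * (if x'.1 = y.1 then (τ x'.2).coeff y.2 else 0) =
      if x = x' then 1 else 0 := fun x x' => by
    rw [Fintype.sum_prod_type, Finset.sum_eq_single x.1 (fun a _ ha => by simp [P', ha]) (by simp)]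
    by_cases h1 : x'.1 = x.1
    · simp only [P', if_true, h1, mul_assoc, ← Finset.mul_sum, ← hv_eq_sum' (n := n) (hF.deg x'.2)]
      refine (hF.piv _ x'.2.2 _ x.2.2).trans (if_congr ?_ rfl rfl)
      exact ⟨fun h => Prod.ext h1.symm (Subtype.ext h.symm), fun h => h ▸ rfl⟩
    · rw [if_neg fun h : x = x' => h1 (h ▸ rfl)]
      simp [h1]
  let c₀ : L := c' x₀ / α (γ x₀)
  let cc : io none × S → L := fun x => c' x - α (γ x) * c₀
  have hcc0 : cc x₀ = 0 := by
    simp only [cc, c₀]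
    rw [mul_div_cancel₀ _ ((map_ne_zero α).2 hγ0), sub_self]
  have hf : ∀ a, η.f none a = C c₀ * (ζ.f none a).map (α : K →+* L) +
      ∑ s : S, C (cc (a, s)) * (τ s).map (α : K →+* L) := fun a => by
    have e1 := hF.exp_map α (η.cp.1 none a)
    have e2 := hF.exp_map α (σ := (ζ.f none a).map (α : K →+* L))
      (natDegree_map_le.trans (ζ.cp.1 none a))
    rw [← Finset.sum_coe_sort] at e1 e2
    rw [e2, Finset.mul_sum, ← Finset.sum_add_distrib]
    refine e1.trans (Finset.sum_congr rfl fun s _ => ?_)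
    rw [← mul_assoc, ← add_mul, ← C_mul, ← C_add]
    congr 2
    have : α (γ (a, s)) = α (ζ.cfg.nrm W s none) *
        hv n ((ζ.f none a).map (α : K →+* L)) ((ζ.x s).map α) :=
      (map_mul α _ _).trans (congrArg _ (Bub96.hv_map (α : K →+* L) _ _ _).symm)
    change c' (a, s) = c₀ * (_ * hv n _ _) + (c' (a, s) - α (γ (a, s)) * c₀)
    rw [this]
    ring
  let c : Fin (mp io n + 1) → L := Fin.cases c₀ fun i => cc (e i.succ)
  let P : Matrix (Fin (mp io n + 1)) (io none × Fin (n + 1)) K := fun i y =>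
    Fin.cases (P' x₀ y / γ x₀) (fun i => P' (e i.succ) y - γ (e i.succ) * (P' x₀ y / γ x₀)) i
  have hP0 : c₀ = ∑ y, α (P' x₀ y / γ x₀) * coef η y := by
    simp only [c₀, hc', Finset.sum_div, map_div₀, div_mul_eq_mul_div]
  have hP : ∀ i, c i = ∑ y, α (P i y) * coef η y := fun i => by
    refine Fin.cases hP0 (fun i => ?_) i
    change c' _ - α _ * c₀ = ∑ y, α (P' (e i.succ) y - γ (e i.succ) * (P' x₀ y / γ x₀)) * coef η y
    simp only [hP0, hc', Finset.mul_sum, map_sub, map_mul, sub_mul, Finset.sum_sub_distrib,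
      mul_assoc]
  have hne : ∀ i, c i ≠ 0 := fun i h0 => by
    have h1 := congrFun (hL _ ((hP i).symm.trans h0))
    revert h1
    refine Fin.cases (fun h1 => ?_) (fun i h1 => ?_) i
    · have h3 := hT x₀ x₀
      rw [if_pos rfl, Finset.sum_eq_zero fun y _ => by
        rw [(div_eq_zero_iff.1 (h1 y)).resolve_right hγ0, zero_mul]] at h3
      exact zero_ne_one h3
    · have h3 := hT (e i.succ) (e i.succ)
      have h4 := hT x₀ (e i.succ)
      rw [if_neg (he0 ▸ e.injective.ne (Fin.succ_ne_zero i).symm)] at h4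
      rw [if_pos rfl, Finset.sum_congr rfl fun y _ => by
        rw [sub_eq_zero.1 (h1 y), mul_div_assoc', mul_comm (γ _), mul_div_assoc, mul_right_comm],
        ← Finset.sum_mul, h4, zero_mul] at h3
      exact zero_ne_one h3
  refine ⟨c, P, fun y i => Fin.cases ((ζ.f none y.1).coeff y.2)
    (fun i => if (e i.succ).1 = y.1 then (τ (e i.succ).2).coeff y.2 else 0) i, hP, fun y => ?_,
    hne, fun p hp => ?_⟩
  · have e1 : ∑ i : Fin (mp io n), α (if (e i.succ).1 = y.1 then (τ (e i.succ).2).coeff y.2 else 0) *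
        cc (e i.succ) = ∑ x, α (if x.1 = y.1 then (τ x.2).coeff y.2 else 0) * cc x := by
      rw [← e.sum_comp, Fin.sum_univ_succ, he0, hcc0, mul_zero, zero_add]
    rw [Fin.sum_univ_succ]
    change (η.f none y.1).coeff y.2 = α ((ζ.f none y.1).coeff y.2) * c₀ + _
    simp only [Fin.cases_succ, c]
    rw [e1, Fintype.sum_prod_type, Finset.sum_eq_single y.1 (fun a _ ha => by simp [ha]) (by simp),
      hf, coeff_add, coeff_C_mul, coeff_map, finsetSum_coeff, mul_comm]
    simp only [coeff_C_mul, coeff_map, if_true, mul_comm (cc _)]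
    rfl
  · subst hp
    obtain ⟨i₁, hi₁⟩ := exists_val_mxf (k := ℂ) (s := fun i => c (Fin.succ i))
      ⟨⟨0, hmp⟩, hne _⟩ p
    have hm : ∀ x, p.v (cc x) ≤ p.v (cc (e i₁.succ)) := fun x => by
      obtain ⟨i, rfl⟩ := e.surjective x
      refine Fin.cases ?_ (fun i => ?_) i
      · rw [he0, hcc0, map_zero]
        exact zero_le
      · exact (mem_Sec_mxf (k := ℂ) (fun i => c (Fin.succ i)) i p).trans hi₁.ge
    have hm0 : (mxf ℂ c).val p = max (p.v c₀) (p.v (cc (e i₁.succ))) := by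
      refine le_antisymm ?_ (max_le (mem_Sec_mxf c 0 p) (mem_Sec_mxf c i₁.succ p))
      obtain ⟨i, hi⟩ := exists_val_mxf (k := ℂ) ⟨0, hne 0⟩ p
      rw [← hi]
      exact Fin.cases (le_max_left _ _) (fun i => (hm _).trans (le_max_right _ _)) i
    obtain ⟨lam, hl, hb⟩ := exists_lam h.on
    obtain ⟨lo, up⟩ := at_p hPr G h hk h2 he hch hF (hne 0) hf hcc0 ha₀ (hne i₁.succ) hm hl hb
    rw [Cfg.val_dv T' hO, val_sub, hm0, ← hi₁]
    have := final (RZ.pos (hne i₁.succ)) (le_max_right (p.v c₀) _)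
      (Cfg.nm_sv_le T' (nz_cfg η) p) (v_dn_lt_one.1 hl) lo fun hlt => by
        have h3 := (lt_max_iff.1 hlt).resolve_right (lt_irrefl _)
        rw [max_eq_left h3.le]
        exact up h3
    exact ⟨this.1, fun h3 => this.2 (h3 lam hl)⟩

end Crest.Agent.X262.Emb10
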