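import Crest.Agent.X262.Emb10.Pt
import Crest.Agent.X262.Bub96.Lat

/-!
# Row 262, road B, EMB (helper10): integral frames of the forms of a factor, coordinates
-/

set_option autoImplicit false
set_option linter.unusedSectionVars false

noncomputable section

namespace Crest.Agent.X262.Emb10

open Crest.Agent.X277 Crest.Agent.X277.BD Polynomial
open Crest.Agent.X262.Hb Crest.Agent.X262.Vb
open Crest.Agent.X262.Bub96 (hv hv_mul hv_add hv_C_mul hv_zero hv_sum)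
open Crest.Agent.X262.Bub96.Tr (dot)
open Crest.Agent.X262.Node22 (scl chr pv_scl chr_ne)

variable {J : Type} [Fintype J] [DecidableEq J] {io : J → Type} [∀ j, Fintype (io j)]
  [∀ j, DecidableEq (io j)] {K L : Type} [Field K] [Algebra ℂ K] [Field L] [Algebra ℂ L]
  {d : J → ℕ} {I : Type} [Fintype I]

theorem chr_single (c : J → K) (j : J) : chr c (Pi.single j 1) = c j := by
  rw [chr, Finset.prod_eq_single j (fun j' _ hj => by simp [hj]) (by simp)]
  simp

theorem mem_gau_V (ζ : Dat io d I K) (c : I → J → K) (j : J) {w : I → K} :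
    w ∈ (ζ.cfg.gau c).V (Pi.single j 1) ↔
      ∃ σ : K[X], σ.natDegree ≤ d j ∧ ∀ q, c q j * hv (d j) σ (ζ.x q) = w q := by
  rw [Cfg.gau_V, mem_sclS]
  simp only [chr_single]
  change (∃ u ∈ (degreeLE K (dot (Pi.single j 1) d : ℕ)).map (ζ.evl (dot (Pi.single j 1) d)), _) ↔ _
  rw [dot_single]
  constructor
  · rintro ⟨_, ⟨σ, h1, rfl⟩, rfl⟩
    exact ⟨σ, natDegree_le_of_degree_le (mem_degreeLE.1 h1), fun q => rfl⟩
  · rintro ⟨σ, h1, h2⟩
    exact ⟨_, ⟨σ, mem_degreeLE.2 (degree_le_of_natDegree_le h1), rfl⟩, funext h2⟩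

open Classical in
/-- an integral frame -/
structure Frame (ζ : Dat io d I K) (W : RZ ℂ K) (j : J) (S : Finset I) (τ : I → K[X]) : Prop where
  card : S.card = d j + 1
  deg : ∀ s, (τ s).natDegree ≤ d j
  int : ∀ s ∈ S, ∀ q, ζ.cfg.nrm W q j * hv (d j) (τ s) (ζ.x q) ∈ W.1
  piv : ∀ s ∈ S, ∀ t ∈ S, ζ.cfg.nrm W t j * hv (d j) (τ s) (ζ.x t) = if s = t then 1 else 0
  exp : ∀ σ : K[X], σ.natDegree ≤ d j →
    σ = ∑ s ∈ S, C (ζ.cfg.nrm W s j * hv (d j) σ (ζ.x s)) * τ s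

theorem exists_frame (ζ : Dat io d I K) (W : RZ ℂ K) (j : J)
    (h : Module.finrank K (ζ.cfg.V (Pi.single j 1)) = d j + 1) :
    ∃ (S : Finset I) (τ : I → K[X]), Frame ζ W j S τ := by
  classical
  obtain ⟨S, u, hE, hu⟩ := exists_ech W ((ζ.cfg.gau (ζ.cfg.nrm W)).V (Pi.single j 1))
  have h1 : ∀ s, ∃ σ : K[X], σ.natDegree ≤ d j ∧
      (s ∈ S → ∀ q, ζ.cfg.nrm W q j * hv (d j) σ (ζ.x q) = u s q) := fun s => by
    by_cases hs : s ∈ S
    · obtain ⟨σ, h2, h3⟩ := (mem_gau_V ζ _ j).1 (hE.mem s hs)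
      exact ⟨σ, h2, fun _ => h3⟩
    · exact ⟨0, by simp, fun h => (hs h).elim⟩
  choose τ h2 h3 using h1
  have inj : ∀ σ : K[X], σ.natDegree ≤ d j → (∀ q, hv (d j) σ (ζ.x q) = 0) → σ = 0 := by
    intro σ hσ h0
    have : Module.Finite K (degreeLE K (d j : ℕ)) := by
      rw [← degreeLT_succ_eq_degreeLE]
      exact Module.Finite.equiv (degreeLTEquiv K _).symm
    refine Bub96.inj_of_finrank (ζ.evl (d j)) (degreeLE K (d j : ℕ)) ?_ σ
      (mem_degreeLE.2 (degree_le_of_natDegree_le hσ)) (funext h0)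
    change Module.finrank K ((degreeLE K (dot (Pi.single j 1) d : ℕ)).map
      (ζ.evl (dot (Pi.single j 1) d))) = _ at h
    rw [dot_single] at h
    rw [h, ← degreeLT_succ_eq_degreeLE, (degreeLTEquiv K _).finrank_eq, Module.finrank_fin_fun]
  refine ⟨S, τ, ?_, h2, fun s hs q => h3 s hs q ▸ hu s hs q, fun s hs t ht => ?_, fun σ hσ => ?_⟩
  · rw [← hE.finrank_eq, Cfg.gau_V, finrank_sclS fun q => chr_ne (Cfg.nrm_ne W _ q) _, h]
  · rw [h3 s hs, hE.piv s hs t ht]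
  · have h4 := hE.exp _ ((mem_gau_V ζ _ j).2 ⟨σ, hσ, fun _ => rfl⟩)
    refine sub_eq_zero.1 (inj _ ((natDegree_sub_le _ _).trans (max_le hσ
      (natDegree_sum_le_of_forall_le _ _ fun s _ => (natDegree_C_mul_le _ _).trans (h2 s))))
      fun q => mul_left_cancel₀ (Cfg.nrm_ne W ζ.cfg q j) ?_)
    rw [sub_eq_add_neg, hv_add, ← neg_one_mul, ← C_1, ← C_neg, hv_C_mul, hv_sum, mul_add, h4 q,
      neg_one_mul, mul_neg, Finset.mul_sum, mul_zero, add_neg_eq_zero]
    exact Finset.sum_congr rfl fun s hs => by rw [hv_C_mul, ← h3 s hs q]; ring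

theorem hv_eq_sum {n : ℕ} {σ : L[X]} (hσ : σ.natDegree ≤ n) (α : K →ₐ[ℂ] L) (t : Option K) :
    hv n σ (t.map α) = ∑ l : Fin (n + 1), α (hv n (X ^ (l : ℕ)) t) * σ.coeff l := by
  conv_lhs => rw [as_sum_range_C_mul_X_pow' σ (Nat.lt_succ_of_le hσ), Finset.sum_range, hv_sum]
  refine Finset.sum_congr rfl fun l _ => ?_
  have := Bub96.hv_map (α : K →+* L) n (X ^ (l : ℕ)) t
  rw [Polynomial.map_pow, map_X] at this
  rw [hv_C_mul, mul_comm]
  exact congrArg (· * _) this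

/-- the expansion holds after extension of the field -/
theorem Frame.exp_map {ζ : Dat io d I K} {W : RZ ℂ K} {j : J} {S : Finset I} {τ : I → K[X]}
    (h : Frame ζ W j S τ) (α : K →ₐ[ℂ] L) {σ : L[X]} (hσ : σ.natDegree ≤ d j) :
    σ = ∑ s ∈ S, C (α (ζ.cfg.nrm W s j) * hv (d j) σ ((ζ.x s).map α)) *
      (τ s).map (α : K →+* L) := by
  simp only [hv_eq_sum hσ α, Finset.mul_sum, map_sum, Finset.sum_mul]
  rw [Finset.sum_comm]
  conv_lhs => rw [as_sum_range_C_mul_X_pow' σ (Nat.lt_succ_of_le hσ), Finset.sum_range]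
  refine Finset.sum_congr rfl fun l _ => ?_
  have h1 := congrArg (Polynomial.map (α : K →+* L))
    (h.exp (X ^ (l : ℕ)) ((natDegree_X_pow_le _).trans (Nat.le_of_lt_succ l.2)))
  rw [Polynomial.map_pow, map_X, Polynomial.map_sum] at h1
  rw [h1, Finset.mul_sum]
  refine Finset.sum_congr rfl fun s _ => ?_
  rw [Polynomial.map_mul, map_C, ← mul_assoc, ← C_mul, map_mul (α : K →+* L)]
  congr 2
  simp only [RingHom.coe_coe]
  ring

end Crest.Agent.X262.Emb10
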