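import Crest.Agent.X262.Vb.Bas1
import Crest.Agent.X262.Bub96.Tree

/-!
# Row 262, road B, EMB (helper10): estimates for values of polynomials, forms along a datum
-/

set_option autoImplicit false
set_option linter.unusedSectionVars false

noncomputable section

namespace Crest.Agent.X262.Emb10

open Crest.Agent.X277 Crest.Agent.X277.BD Polynomial
open Crest.Agent.X262.Hb Crest.Agent.X262.Vb
open Crest.Agent.X262.Bub96 (hv hv_mul hv_add hv_C_mul hv_zero)
open Crest.Agent.X262.Bub96.Tr (dot)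
open Crest.Agent.X262.Node22 (scl chr pv_scl chr_ne)

variable {J : Type} [Fintype J] [DecidableEq J] {io : J → Type} [∀ j, Fintype (io j)]
  [∀ j, DecidableEq (io j)] {L : Type} [Field L] [Algebra ℂ L] {V : RZ ℂ L}
  {y y' : Pnt io L} {γ : V.1.ValueGroup}

theorem v_mul_le {a b : L} (ha : a ∈ V.1) (hb : V.v b ≤ γ) : V.v (a * b) ≤ γ := by
  rw [map_mul]
  exact (mul_le_of_le_one_left' (RZ.le_one_iff.2 ha)).trans hb

theorem v_mul_le' {a b : L} (ha : V.v a ≤ γ) (hb : b ∈ V.1) : V.v (a * b) ≤ γ :=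
  mul_comm b a ▸ v_mul_le hb ha

theorem v_add_le {a b : L} (ha : V.v a ≤ γ) (hb : V.v b ≤ γ) : V.v (a + b) ≤ γ :=
  (V.v.map_add _ _).trans (max_le ha hb)

theorem v_sub_le {a b : L} (ha : V.v a ≤ γ) (hb : V.v b ≤ γ) : V.v (a - b) ≤ γ :=
  (V.v.map_sub _ _).trans (max_le ha hb)

/-- polynomials are Lipschitz on integral points -/
theorem v_pv_sub (h : ∀ j i, y j i ∈ V.1) (h' : ∀ j i, y' j i ∈ V.1)
    (hd : ∀ j i, V.v (y j i - y' j i) ≤ γ) (q : MvPolynomial (Vr io) ℂ) :
    V.v (pv y q - pv y' q) ≤ γ := by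
  induction q using MvPolynomial.induction_on with
  | C a => simp [pv]
  | add f g hf hg =>
    rw [show pv y (f + g) - pv y' (f + g) = (pv y f - pv y' f) + (pv y g - pv y' g) by
      simp only [pv, map_add]; ring]
    exact v_add_le hf hg
  | mul_X f v hf =>
    rw [show pv y (f * MvPolynomial.X v) - pv y' (f * MvPolynomial.X v) =
      (pv y f - pv y' f) * y v.1 v.2 + pv y' f * (y v.1 v.2 - y' v.1 v.2) by
        simp only [pv, map_mul, MvPolynomial.aeval_X]; ring]
    exact v_add_le (v_mul_le' hf (h _ _)) (v_mul_le (pv_mem h' f) (hd _ _))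

/-- members of the ideal are bounded by the generators -/
theorem v_pv_ideal {A : Type} {F : A → MvPolynomial (Vr io) ℂ} (h : ∀ j i, y j i ∈ V.1)
    (hF : ∀ b, V.v (pv y (F b)) ≤ γ) {q : MvPolynomial (Vr io) ℂ}
    (hq : q ∈ Ideal.span (Set.range F)) : V.v (pv y q) ≤ γ := by
  induction hq using Submodule.span_induction with
  | mem x hx => obtain ⟨b, rfl⟩ := hx; exact hF b
  | zero => simp [pv]
  | add f g _ _ hf hg => rw [pv, map_add]; exact v_add_le hf hg
  | smul f g _ hg => rw [pv, smul_eq_mul, map_mul]; exact v_mul_le (pv_mem h f) hg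

/-- sizes are values at primitive coordinates -/
theorem v_pv_prim {c : J → L} (hy : NZ y) (hc : ∀ j, c j ≠ 0) (hp : Prim V (scl c y))
    {q : MvPolynomial (Vr io) ℂ} {κ : J → ℕ} (hq : MH q κ) :
    V.v (pv (scl c y) q) ≤ γ ↔ V.v (pv y q) ≤ γ * (lw κ y).val V := by
  have h1 := hp.val_lw κ
  rw [lw_scl hy hc, val_add, val_pr (chr_ne hc κ)] at h1
  rw [pv_scl hq, map_mul, eq_inv_of_mul_eq_one_right h1, mul_comm, ← div_eq_mul_inv,
    div_le_iff₀ (val_pos _ _)]

theorem dot_add' (κ κ' d : J → ℕ) : dot (κ + κ') d = dot κ d + dot κ' d := by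
  simp only [dot, Pi.add_apply, add_mul, Finset.sum_add_distrib]

theorem dot_single (j : J) (d : J → ℕ) : dot (Pi.single j 1) d = d j := by
  rw [dot, Finset.sum_eq_single j (fun j' _ h => by simp [h]) (by simp)]
  simp

/-- the binary form given by a multihomogeneous polynomial along a datum -/
theorem exists_form {d : J → ℕ} {I : Type} (ξ : Dat io d I L) {q : MvPolynomial (Vr io) ℂ}
    {κ : J → ℕ} (hq : MH q κ) :
    ∃ σ : L[X], σ.natDegree ≤ dot κ d ∧ ∀ t, hv (dot κ d) σ t = pv (ξ.pt t) q := by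
  have one : ∃ σ : L[X], σ.natDegree ≤ dot 0 d ∧ ∀ t, hv (dot 0 d) σ t = 1 :=
    ⟨1, by simp, fun t => by rcases t with _ | t <;> simp [dot]⟩
  have mul : ∀ {κ κ' : J → ℕ} {u u' : Option L → L},
      (∃ σ : L[X], σ.natDegree ≤ dot κ d ∧ ∀ t, hv (dot κ d) σ t = u t) →
      (∃ σ : L[X], σ.natDegree ≤ dot κ' d ∧ ∀ t, hv (dot κ' d) σ t = u' t) →
      ∃ σ : L[X], σ.natDegree ≤ dot (κ + κ') d ∧ ∀ t, hv (dot (κ + κ') d) σ t = u t * u' t := by
    rintro κ κ' u u' ⟨σ, h1, h2⟩ ⟨σ', h1', h2'⟩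
    rw [dot_add']
    exact ⟨σ * σ', natDegree_mul_le.trans (add_le_add h1 h1'), fun t => by
      rw [hv_mul h1 h1', h2, h2']⟩
  have key : ∀ e : Vr io →₀ ℕ, ∃ σ : L[X],
      σ.natDegree ≤ dot (Finsupp.weight (fun v : Vr io => (Pi.single v.1 1 : J → ℕ)) e) d ∧
      ∀ t, hv (dot (Finsupp.weight (fun v : Vr io => (Pi.single v.1 1 : J → ℕ)) e) d) σ t =
        e.prod fun v k => ξ.pt t v.1 v.2 ^ k := by
    intro e
    induction e using Finsupp.induction_linear with
    | zero => simpa only [Finsupp.prod_zero_index, map_zero] using one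
    | add a b ha hb =>
      rw [map_add]
      obtain ⟨σ, h1, h2⟩ := mul ha hb
      exact ⟨σ, h1, fun t => (h2 t).trans
        (Finsupp.prod_add_index' (by simp) (by simp [pow_add])).symm⟩
    | single v k =>
      rw [Finsupp.weight_single]
      simp only [Finsupp.prod_single_index (h := fun (v : Vr io) k => ξ.pt _ v.1 v.2 ^ k)
        (pow_zero _)]
      induction k with
      | zero => simpa only [zero_nsmul, pow_zero] using one
      | succ k ih =>
        rw [succ_nsmul]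
        simp only [pow_succ]
        exact mul ih ⟨ξ.f v.1 v.2, (dot_single v.1 d).symm ▸ ξ.cp.1 _ _, fun t => by
          rw [dot_single]; rfl⟩
  unfold MH at hq
  induction hq using MvPolynomial.IsWeightedHomogeneous.induction_on with
  | zero => exact ⟨0, by simp, fun t => by simp [pv, hv_zero]⟩
  | add f g _ _ hf hg =>
    obtain ⟨σ, h1, h2⟩ := hf
    obtain ⟨σ', h1', h2'⟩ := hg
    exact ⟨σ + σ', natDegree_add_le_of_degree_le h1 h1', fun t => by
      rw [hv_add, h2, h2', pv, pv, pv, map_add]⟩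
  | monomial e r hr =>
    obtain ⟨σ, h1, h2⟩ := hr ▸ key e
    exact ⟨C (algebraMap ℂ L r) * σ, (natDegree_C_mul_le _ _).trans h1, fun t => by
      rw [hv_C_mul, h2, pv, MvPolynomial.aeval_monomial]⟩

end Crest.Agent.X262.Emb10
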